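import Vale.Agent.P084.Full.Final

/-!
P084: Tingley's problem has an affirmative answer for all real Banach spaces: every surjective
isometry between the unit spheres is the restriction of a linear isometry.
-/

namespace Vale.Agent.Results.P084.TingleyAffirmative

theorem result {X Y : Type*} [NormedAddCommGroup X] [NormedSpace ℝ X] [CompleteSpace X]
    [NormedAddCommGroup Y] [NormedSpace ℝ Y] [CompleteSpace Y]
    (f : Metric.sphere (0 : X) 1 → Metric.sphere (0 : Y) 1) (hf : Isometry f)
    (hsurj : Function.Surjective f) :
    ∃ T : X ≃ₗᵢ[ℝ] Y, ∀ x : Metric.sphere (0 : X) 1, T (x : X) = (f x : Y) :=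
  Vale.Agent.P084.Full.tingley f hf hsurj

end Vale.Agent.Results.P084.TingleyAffirmative
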